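import Vale.Agent.P101.Main
import Vale.Agent.P101.JLift

namespace Vale.Agent.Results.P101.JiangSu
open Vale.Agent.P101 Vale.Agent.P101.ZDef Filter TopologicalSpace

universe u

theorem result :
    (∃ (Z : Type u) (_ : CStarAlgebra Z), IsJiangSuAlgebra Z) ∧
    ∀ (Z : Type u) [CStarAlgebra Z], IsJiangSuAlgebra Z →
      ∀ (A : Type u) [CStarAlgebra A] [Nontrivial A] [SeparableSpace A] (ω : Ultrafilter ℕ),
        (ω : Filter ℕ) ≤ cofinite → NoCharacter (CentralSeq ω A) → Absorbs A Z :=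
  ⟨have ⟨Z, i, h⟩ := JS.exists_isJS_univ; ⟨Z, i, JS.isJS_iff.2 h⟩,
    fun _ _ hZ _ _ _ _ _ hω h => absorb_of_noChar hω h (JS.isJS_iff.1 hZ).isJiangSu⟩

end Vale.Agent.Results.P101.JiangSu
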