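import Vale.Agent.P101.Main

namespace Vale.Agent.Results.P101.ZStable
open Vale.Agent.P101 Filter TopologicalSpace

universe u

theorem result (A : Type u) [CStarAlgebra A] [Nontrivial A] [SeparableSpace A]
    (ω : Ultrafilter ℕ) (hω : (ω : Filter ℕ) ≤ cofinite) (h : NoCharacter (CentralSeq ω A)) :
    (∀ p q : ℕ, 0 < p → 0 < q → p.Coprime q → DropMapsTo p q (CentralSeq ω A)) ∧
    ∀ (Z : Type u) [CStarAlgebra Z], IsJiangSu Z → Absorbs A Z :=
  ⟨fun _ _ hp hq hpq => dimDrop_central hω h hp hq hpq, fun _ _ hZ => absorb_of_noChar hω h hZ⟩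

end Vale.Agent.Results.P101.ZStable
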